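import Vale.Agent.P366K2.Bd

/-!
P366AP: the bound along the normal lines.
-/

open MeasureTheory Metric Filter Topology Set
open scoped ContDiff NNReal ENNReal
open Vale.Agent.P366.Stmt Vale.Agent.P366K2

noncomputable section

namespace Vale.Agent.P366AP

variable {n : ℕ}

/-- The fundamental theorem of calculus along a line. -/
theorem ftc {h h' b : ℝ → ℝ} {s l : ℝ} (d : ∀ t, HasDerivAt h (h' t) t) (c : Continuous h')
    (cb : Continuous b) (b0 : ∀ t, 0 ≤ b t) (hs : s ∈ Icc 0 l) (e : ∀ t ∈ Icc 0 l, |h' t| ≤ b t) :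
    |h s| ≤ |h l| + ∫ t in (0 : ℝ)..l, b t := by
  have k := intervalIntegral.integral_eq_sub_of_hasDerivAt (fun t _ => d t) (c.intervalIntegrable s l)
  have k1 : ‖∫ t in s..l, h' t‖ ≤ ∫ t in s..l, b t :=
    intervalIntegral.norm_integral_le_of_norm_le hs.2
      (.of_forall fun t ht => e t ⟨hs.1.trans ht.1.le, ht.2⟩) (cb.intervalIntegrable s l)
  have k2 : ∫ t in s..l, b t ≤ ∫ t in (0 : ℝ)..l, b t :=
    intervalIntegral.integral_mono_interval hs.1 hs.2 le_rfl (.of_forall b0)
      (cb.intervalIntegrable 0 l)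
  rw [k, Real.norm_eq_abs] at k1
  have := abs_sub_abs_le_abs_sub (h s) (h l)
  rw [abs_sub_comm] at this
  linarith

/-- The line lemma. -/
theorem line (i : Fin n) {μ : Measure (E n)} {ε : ℝ} {c : ℝ≥0∞} {F : E n → ℝ≥0∞}
    (hF : Measurable F) (sp : ∀ᵐ z ∂μ, z i ∈ Icc 0 ε) (le : μ ≤ c • volume) (y : E n) :
    ∫⁻ z, ∫⁻ t : ℝ, F (y + z + t • ev i) ∂volume ∂μ ≤ c * (ENNReal.ofReal ε * ∫⁻ w, F w) := by
  have mS : MeasurableSet {z : E n | z i ∈ Icc 0 ε} := measurableSet_Icc.preimage (by fun_prop)
  have mI : Measurable (indicator {z : E n | z i ∈ Icc 0 ε} (1 : E n → ℝ≥0∞)) :=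
    measurable_one.indicator mS
  generalize hI : indicator {z : E n | z i ∈ Icc 0 ε} (1 : E n → ℝ≥0∞) = I at mI
  calc _ = ∫⁻ z, ∫⁻ t : ℝ, I z * F (y + z + t • ev i) ∂volume ∂μ :=
        lintegral_congr_ae (sp.mono fun z hz => by
          simp only [← hI, indicator_of_mem (show z ∈ {z : E n | z i ∈ Icc 0 ε} from hz),
            Pi.one_apply, one_mul])
    _ ≤ c * ∫⁻ z, ∫⁻ t : ℝ, I z * F (y + z + t • ev i) := by
        rw [← smul_eq_mul, ← lintegral_smul_measure]
        exact lintegral_mono' le le_rfl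
    _ = c * ∫⁻ t : ℝ, ∫⁻ w, I (w - (y + t • ev i)) * F w := by
        rw [lintegral_lintegral_swap (by fun_prop)]
        refine congrArg _ (lintegral_congr fun t => ?_)
        rw [← lintegral_add_left_eq_self (fun w => I (w - (y + t • ev i)) * F w) (y + t • ev i)]
        simp only [add_sub_cancel_left, add_right_comm y _ (t • ev i)]
    _ = _ := by
        rw [lintegral_lintegral_swap (by fun_prop), ← lintegral_const_mul _ hF]
        refine congrArg _ (lintegral_congr fun w => ?_)
        rw [lintegral_mul_const _ (by fun_prop)]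
        refine congrArg (· * F w) ?_
        have e : (fun t : ℝ => I (w - (y + t • ev i))) =
            indicator (Icc (w i - y i - ε) (w i - y i)) 1 := funext fun t => by
          rw [← hI]
          refine indicator_const_eq_indicator_const ?_
          simp only [mem_ofPred_eq, PiLp.sub_apply, PiLp.add_apply, PiLp.smul_apply, mem_Icc,
            PiLp.single_apply, if_true, smul_eq_mul, mul_one]
          constructor <;> intro h <;> constructor <;> linarith [h.1, h.2]
        rw [e, lintegral_indicator_one measurableSet_Icc, Real.volume_Icc]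
        ring_nf

theorem num {κ L R A B q : ℝ} (hR : 4 * L ^ 2 * R ≤ 1) (k : 0 ≤ κ + L * (L * A + B))
    (h1 : q ≤ κ + L * (L * A + B)) (h2 : A ≤ 2 * R * (κ + L * (L * A + B))) :
    q ≤ 2 * κ + 2 * L * B := by
  have := mul_le_mul_of_nonneg_left h2 (sq_nonneg L)
  have := mul_le_mul_of_nonneg_right hR k
  nlinarith

variable {ι : Type} [Fintype ι] {i : Fin n} {o : ι} {x : E n} {R L ε κ η : ℝ} {μ : Measure (E n)}
  {u b : ι → E n → ℝ} {a J d : E n → ℝ}

theorem q_nn (y : E n) : 0 ≤ Qf u y := Finset.sum_nonneg fun _ _ => by positivity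

theorem q_cont (h : Fn i o x R L ε κ η μ u b a J d) : Continuous (Qf u) :=
  continuous_finsetSum _ fun α _ => (h.b0 α).cd.continuous.abs.add
    (continuous_finsetSum _ fun k _ => (h.b1 α k).cd.continuous.abs)

theorem pd_q (α : ι) (y : E n) : |pd i (u α) y| ≤ Qf u y :=
  ((Finset.single_le_sum (f := fun k => |pd k (u α) y|) (fun _ _ => abs_nonneg _)
    (Finset.mem_univ i)).trans (le_add_of_nonneg_left (abs_nonneg _))).trans
    (Finset.single_le_sum (f := fun α => |u α y| + ∑ k, |pd k (u α) y|)
      (fun _ _ => by positivity) (Finset.mem_univ α))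

/-- The pointwise bound. -/
theorem pt (h : Fn i o x R L ε κ η μ u b a J d) {w : E n} (hw : w ∈ closedBall x (3 * R))
    (h0 : 0 ≤ w i) : Qf u w ≤ 2 * κ + 2 * L * ∫ t in (0 : ℝ)..2 * R, J (w + t • ev i) := by
  have R0 := h.R0
  have L0 := zero_le_one.trans h.L1
  have cq : Continuous fun t : ℝ => Qf u (w + t • ev i) := (q_cont h).comp (by fun_prop)
  have cj : Continuous fun t : ℝ => J (w + t • ev i) := h.cJ.comp (by fun_prop)
  have co : ∀ t : ℝ, (w + t • ev i) i = w i + t := fun t => by simp
  have mem : ∀ t ∈ Icc 0 (2 * R), w + t • ev i ∈ closedBall x (5 * R) := fun t ht => by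
    rw [mem_closedBall_iff_norm] at hw ⊢
    rw [add_sub_right_comm]
    refine (norm_add_le _ _).trans ?_
    rw [norm_smul, norm_ev, Real.norm_of_nonneg ht.1]
    linarith [ht.2]
  have b0 : ∀ t : ℝ, 0 ≤ L * Qf u (w + t • ev i) + J (w + t • ev i) := fun t =>
    add_nonneg (mul_nonneg L0 (q_nn _)) (h.J0 _)
  have one : ∀ g, B1 g → (∀ t ∈ Icc 0 (2 * R), |pd i g (w + t • ev i)| ≤
      L * Qf u (w + t • ev i) + J (w + t • ev i)) → ∀ s ∈ Icc 0 (2 * R), |g (w + s • ev i)| ≤
      |g (w + (2 * R) • ev i)| + ∫ t in (0 : ℝ)..2 * R, L * Qf u (w + t • ev i) + J (w + t • ev i) :=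
    fun g hg e s hs => ftc (pd_line hg.dif i w)
      ((pd_cd (m := 0) (by simpa using hg.cd) i).continuous.comp (by fun_prop))
      ((cq.const_mul L).add cj) b0 hs e
  have i0 := intervalIntegral.integral_nonneg_of_forall (μ := volume) (by linarith : 0 ≤ 2 * R) b0
  rw [intervalIntegral.integral_add ((cq.const_mul L).intervalIntegrable _ _)
    (cj.intervalIntegrable _ _), intervalIntegral.integral_const_mul] at one i0
  generalize ∫ t in (0 : ℝ)..2 * R, J (w + t • ev i) = B at *
  generalize hA : ∫ t in (0 : ℝ)..2 * R, Qf u (w + t • ev i) = A at *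
  have all : ∀ s ∈ Icc 0 (2 * R), Qf u (w + s • ev i) ≤ κ + L * (L * A + B) := fun s hs => by
    have t := h.top _ (mem _ ⟨by linarith, le_rfl⟩) (by rw [co]; linarith)
    have k : Qf u (w + s • ev i) ≤ ∑ α, ((|u α (w + (2 * R) • ev i)| + (L * A + B)) +
        ∑ k, (|pd k (u α) (w + (2 * R) • ev i)| + (L * A + B))) :=
      Finset.sum_le_sum fun α _ => add_le_add (one _ (h.b0 α) (fun t _ => (pd_q α _).trans
        ((le_mul_of_one_le_left (q_nn _) h.L1).trans (le_add_of_nonneg_right (h.J0 _)))) s hs)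
        (Finset.sum_le_sum fun k _ => one _ (h.b1 α k) (fun t ht => h.mx α k _ (mem t ht)
          (by rw [co]; linarith [ht.1])) s hs)
    simp only [Finset.sum_add_distrib, Finset.sum_const, Finset.card_univ, Fintype.card_fin,
      nsmul_eq_mul, Qf] at k t ⊢
    nlinarith [mul_le_mul_of_nonneg_right h.cd i0]
  have k := intervalIntegral.integral_mono_on (μ := volume) (by linarith : 0 ≤ 2 * R)
    (cq.intervalIntegrable _ _) intervalIntegrable_const all
  rw [hA, intervalIntegral.integral_const, sub_zero, smul_eq_mul] at k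
  exact num h.LR (add_nonneg h.κ0 (mul_nonneg L0 i0))
    (by simpa using all 0 ⟨le_rfl, by linarith⟩) k

theorem apr : APR := by
  intro n ι _ i o x R L ε κ η μ u b a J d h y hy h0
  have := h.pm
  have R0 := h.R0
  have L0 := zero_le_one.trans h.L1
  have κ0 := h.κ0
  have mJ : Measurable fun w => ENNReal.ofReal (J w) := h.cJ.measurable.ennreal_ofReal
  have k := line i mJ (h.sp.mono fun _ k => k.2) h.le y
  rw [← ofReal_integral_eq_lintegral_ofReal h.iJ (.of_forall h.J0), ← mul_assoc,
    ← ENNReal.ofReal_mul (div_nonneg κ0 h.ε0.le), div_mul_cancel₀ _ h.ε0.ne'] at k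
  rw [Ff, integral_eq_lintegral_of_nonneg_ae (.of_forall fun z => q_nn _)
    ((q_cont h).comp (by fun_prop)).aestronglyMeasurable]
  refine ENNReal.toReal_le_of_le_ofReal (by positivity) ?_
  calc _ ≤ ∫⁻ z, (ENNReal.ofReal (2 * κ) + ENNReal.ofReal (2 * L) *
        ∫⁻ t : ℝ, ENNReal.ofReal (J (y + z + t • ev i))) ∂μ := by
        refine lintegral_mono_ae (h.sp.mono fun z hz => ?_)
        have m : y + z ∈ closedBall x (3 * R) := by
          rw [mem_closedBall_iff_norm] at hy ⊢
          rw [add_sub_right_comm]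
          linarith [norm_add_le (y - x) z, hz.1]
        have cj : Continuous fun t : ℝ => J (y + z + t • ev i) := h.cJ.comp (by fun_prop)
        refine (ENNReal.ofReal_le_ofReal (pt h m (add_nonneg h0 hz.2.1))).trans
          (ENNReal.ofReal_add_le.trans (add_le_add le_rfl ?_))
        rw [ENNReal.ofReal_mul (by positivity), intervalIntegral.integral_of_le (by linarith),
          ofReal_integral_eq_lintegral_ofReal (cj.intervalIntegrable _ _).1
            (.of_forall fun _ => h.J0 _)]
        exact mul_le_mul_right (setLIntegral_le_lintegral _ _) _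
    _ ≤ ENNReal.ofReal (2 * κ) + ENNReal.ofReal (2 * L) * (ENNReal.ofReal κ * ENNReal.ofReal L) := by
        rw [lintegral_add_left measurable_const, lintegral_const, measure_univ, mul_one,
          lintegral_const_mul' _ _ ENNReal.ofReal_ne_top]
        exact add_le_add le_rfl (mul_le_mul_right (k.trans (mul_le_mul_right
          (ENNReal.ofReal_le_ofReal h.iJ') _)) _)
    _ = _ := by
        rw [← ENNReal.ofReal_mul κ0, ← ENNReal.ofReal_mul (by positivity),
          ← ENNReal.ofReal_add (by positivity) (by positivity)]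
        ring_nf

end Vale.Agent.P366AP
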